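import Crest.Agent.X262.Gwb.Defs
import Crest.Agent.X262.Coh.Basic

/-!
# Row 262, END (helper36), part 2: constructions of embeddings

* `Rs.key`, `Rs.reg`, `Rs.pb_c1`, `exists_rs`, `pull` : restriction of tuples;
* `IsE T` : the embedding condition; `IsE.mono`, `IsE.res`, `IsE.prod`, `isE_own`;
* `add`, `exists_res`, `exists_prod`, `own`, `ownP` : embeddings.
-/

set_option autoImplicit false

noncomputable section

namespace Crest.Agent.X262.End36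

open Crest.Agent.X277 Crest.Agent.X277.Lef Crest.Agent.X277.AN.G1 Crest.Agent.X277.BD
  Crest.Agent.X277.BD.Br
open Crest.Agent.X262.Coh Crest.Agent.X262.Gwb
open Crest.Agent.R274.Prod1_134 (isPF pα pβ)

variable {X Y : SV}

theorem exists_at {t : Tup Y.F} (h : t.Reg Y) (x : Y.Pt) : ∃ i, At t.bd x (t.y i) :=
  (h.2 x).elim fun _ hg => hg.exists_mxf h.1

theorem div_mem_at {t : Tup Y.F} {x : Y.Pt} {i : t.io} (h : At t.bd x (t.y i)) (l : t.io) :
    t.y l / t.y i ∈ (lp x).O := h.div_mem (mem_Sec_mxf t.y l)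

section Rs

variable {μ : Hom X Y} {t : Tup Y.F} {t' : Tup X.F}

theorem rs_key (h : Rs μ t t') (h0 : ∃ i, t'.y i ≠ 0) :
    ∃ (e : t.io ≃ t'.io) (u : Y.F) (c : X.F), c ≠ 0 ∧ (∀ i, t.y i / u ∈ μ.p.O) ∧
      (∀ i, t'.y (e i) = c * μ.p.π (t.y i / u)) ∧ ∀ (x : X.Pt) (i : t.io),
      At t.bd (μ.map x) (t.y i) → μ.p.π (t.y i / u) ≠ 0 ∧ At t'.bd x (t'.y (e i)) ∧
        ∀ l, t'.y (e l) / t'.y (e i) = μ.p.π (t.y l / t.y i) := by
  obtain ⟨e, u, c, h1, h2⟩ := h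
  obtain ⟨i₀, hi₀⟩ := h0
  obtain ⟨i₀, rfl⟩ := e.surjective i₀
  rw [h2] at hi₀
  have hc := left_ne_zero_of_mul hi₀
  refine ⟨e, u, c, hc, h1, h2, fun x i hi => ?_⟩
  have h3 : ∀ l, μ.p.π (t.y l / u) = μ.p.π (t.y l / t.y i) * μ.p.π (t.y i / u) := fun l => by
    rw [← μ.p.π_mul (μ.mem_O (div_mem_at hi l)) (h1 i), div_mul_div_cancel₀ hi.ne]
  have h4 : μ.p.π (t.y i / u) ≠ 0 := fun h0 => hi₀ (by rw [h3, h0, mul_zero, mul_zero])
  have h5 : ∀ l, t'.y (e l) / t'.y (e i) = μ.p.π (t.y l / t.y i) := fun l => by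
    rw [h2, h2, mul_div_mul_left _ _ hc, h3 l, mul_div_cancel_right₀ _ h4]
  refine ⟨h4, at_mxf (by rw [h2]; exact mul_ne_zero hc h4) fun l => ?_, h5⟩
  obtain ⟨l, rfl⟩ := e.surjective l
  rw [h5]
  exact μ.π_mem (div_mem_at hi l)

theorem rs_reg (h : Rs μ t t') (h0 : ∃ i, t'.y i ≠ 0) (ht : t.Reg Y) : t'.Reg X := by
  obtain ⟨e, u, c, -, -, -, h3⟩ := rs_key h h0
  refine ⟨h0, fun x => ?_⟩
  obtain ⟨i, hi⟩ := exists_at ht (μ.map x)
  exact ⟨_, (h3 x i hi).2.1⟩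

/-- the class of the restricted tuple is the pull-back of the class -/
theorem rs_pb_c1 {C : Th} (hM : C.MAN) (h : Rs μ t t') (h0 : ∃ i, t'.y i ≠ 0) (ht : t.Reg Y) :
    C.pb μ (C.c1 Y t.bd) = C.c1 X t'.bd := by
  have hr := rs_reg h h0 ht
  obtain ⟨e, u, c, hc, h1, h2, h3⟩ := rs_key h h0
  have h4 : LPb μ t.bd (t'.bd - pr ℂ c) := by
    refine ⟨u, fun x g hg => ?_⟩
    obtain ⟨i, hi⟩ := exists_at ht (μ.map x)
    have h5 := hg.ev_div_ne hi
    have h6 := LP.mem_of_ne h5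
    have h7 := ((h3 x i hi).2.1.sub (at_pr x hc)).mul_unit (f := μ.p.π (g / t.y i))
      (by rw [← μ.ev_map h6]; exact h5)
    rwa [h2, mul_div_cancel_left₀ _ hc, ← μ.p.π_mul (μ.mem_O h6) (h1 i),
      div_mul_div_cancel₀ hi.ne] at h7
  rw [hM.c1_pb μ _ ht.2 _ h4, hM.c1_sub hr.2 (pr_mem c), hM.c1_pr, sub_zero]

theorem exists_rs (μ : Hom X Y) (ht : t.Reg Y) :
    ∃ y : t.io → X.F, Rs μ t ⟨t.io, y⟩ ∧ ∃ i, y i ≠ 0 := by
  obtain ⟨x⟩ : Nonempty X.Pt := inferInstance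
  obtain ⟨i, hi⟩ := exists_at ht (μ.map x)
  refine ⟨fun l => μ.p.π (t.y l / t.y i), ⟨Equiv.refl _, t.y i, 1,
    fun l => μ.mem_O (div_mem_at hi l), fun l => (one_mul _).symm⟩, i, ?_⟩
  beta_reduce
  rw [div_self hi.ne, Plc.π_one]
  exact one_ne_zero

end Rs

/-- the pull-back of a regular tuple -/
def pull (μ : Hom X Y) (t : Tup Y.F) (ht : t.Reg Y) : Tup X.F := ⟨t.io, (exists_rs μ ht).choose⟩

theorem rs_pull (μ : Hom X Y) (t : Tup Y.F) (ht : t.Reg Y) : Rs μ t (pull μ t ht) :=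
  (exists_rs μ ht).choose_spec.1

theorem pull_ne (μ : Hom X Y) (t : Tup Y.F) (ht : t.Reg Y) : ∃ i, (pull μ t ht).y i ≠ 0 :=
  (exists_rs μ ht).choose_spec.2

theorem reg_pull (μ : Hom X Y) (t : Tup Y.F) (ht : t.Reg Y) : (pull μ t ht).Reg X :=
  rs_reg (rs_pull μ t ht) (pull_ne μ t ht) ht

theorem aeval_scl {J σ R : Type} [Fintype J] [DecidableEq J] [CommRing R] [Algebra ℂ R] (b : σ → J)
    {q : MvPolynomial σ ℂ} {κ : J → ℕ}
    (h : q.IsWeightedHomogeneous (fun v => (Pi.single (b v) 1 : J → ℕ)) κ) (c : J → R) (y : σ → R) :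
    MvPolynomial.aeval (fun v => c (b v) * y v) q = (∏ j, c j ^ κ j) * MvPolynomial.aeval y q := by
  have key : ∀ d : σ →₀ ℕ, (d.prod fun v k => c (b v) ^ k) =
      ∏ j, c j ^ Finsupp.weight (fun v => (Pi.single (b v) 1 : J → ℕ)) d j := by
    intro d
    induction d using Finsupp.induction_linear with
    | zero => simp
    | add a a' ha hb =>
      rw [Finsupp.prod_add_index' (by simp) (by simp [pow_add]), ha, hb, map_add]
      simp [pow_add, Finset.prod_mul_distrib]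
    | single v k =>
      rw [Finsupp.prod_single_index (by simp), Finsupp.weight_single,
        Finset.prod_eq_single (b v) (fun j _ hj => by simp [hj]) (by simp)]
      simp
  induction h using MvPolynomial.IsWeightedHomogeneous.induction_on with
  | zero => simp
  | add p q _ _ hp hq => rw [map_add, map_add, hp, hq, mul_add]
  | monomial d r hr =>
    simp only [MvPolynomial.aeval_monomial, mul_pow, Finsupp.prod_mul, key, hr]
    ring

/-- a homogeneous relation restricts -/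
theorem rs_cod {J J' : Type} [Fintype J] [DecidableEq J] [Fintype J'] [DecidableEq J']
    {μ : Hom X Y} {T : J → Tup Y.F} {T' : J' → Tup X.F} {g : J → J'} (hg : Function.Injective g)
    (h : ∀ k, Rs μ (T k) (T' (g k)))
    (hq : ∃ (q : MvPolynomial (Σ j, (T j).io) ℂ) (κ : J → ℕ), q ≠ 0 ∧
      q.IsWeightedHomogeneous (fun v => (Pi.single v.1 1 : J → ℕ)) κ ∧
      MvPolynomial.aeval (fun v : Σ j, (T j).io => (T v.1).y v.2) q = 0) :
    ∃ (q : MvPolynomial (Σ j, (T' j).io) ℂ) (κ : J' → ℕ), q ≠ 0 ∧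
      q.IsWeightedHomogeneous (fun v => (Pi.single v.1 1 : J' → ℕ)) κ ∧
      MvPolynomial.aeval (fun v : Σ j, (T' j).io => (T' v.1).y v.2) q = 0 := by
  obtain ⟨q, κ, h0, hq, hz⟩ := hq
  choose e u c h1 h2 using h
  let φ : (Σ j, (T j).io) → Σ j, (T' j).io := Sigma.map g fun j => e j
  have hφ : Function.Injective φ := hg.sigma_map fun j => (e j).injective
  let ψ : (J → ℕ) →ₗ[ℕ] (J' → ℕ) := Fintype.linearCombination ℕ fun k => Pi.single (g k) 1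
  refine ⟨MvPolynomial.rename φ q, ψ κ, fun h => h0 (MvPolynomial.rename_injective φ hφ
    (by rw [h, map_zero])), fun d hd => ?_, ?_⟩
  · obtain ⟨d, rfl, hd'⟩ := MvPolynomial.coeff_rename_ne_zero φ q d hd
    rw [← hq hd', Finsupp.weight_apply, Finsupp.weight_apply,
      Finsupp.sum_mapDomain_index (by simp) (by simp [add_smul]), map_finsuppSum]
    refine Finsupp.sum_congr fun v _ => ?_
    rw [map_smul, Fintype.linearCombination_apply_single, one_smul]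
    rfl
  · rw [MvPolynomial.aeval_rename]
    have h3 : ((fun v : Σ j, (T' j).io => (T' v.1).y v.2) ∘ φ) =
        fun v => c v.1 * μ.p.π ((u v.1)⁻¹ * (T v.1).y v.2) :=
      funext fun v => (h2 v.1 v.2).trans (by rw [div_eq_inv_mul])
    rw [h3, aeval_scl Sigma.fst hq, ← (Plc.π_aeval (fun v : Σ j, (T j).io => by
      rw [← div_eq_inv_mul]; exact h1 v.1 v.2) q).2,
      aeval_scl Sigma.fst hq (fun j => (u j)⁻¹), hz, mul_zero, Plc.π_zero, mul_zero]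

/-! ### the embedding condition -/

/-- the affine coordinates generate the local rings -/
def IsE {J : Type} (T : J → Tup Y.F) : Prop :=
  ∀ x : Y.Pt, ∀ g ∈ (lp x).O, ∃ a ∈ Algebra.adjoin ℂ (crdAt T x),
    ∃ c ∈ Algebra.adjoin ℂ (crdAt T x), ev c x ≠ 0 ∧ g * c = a

theorem adj_le {J : Type} (T : J → Tup Y.F) (x : Y.Pt) :
    Algebra.adjoin ℂ (crdAt T x) ≤ (lp x).O := by
  refine Algebra.adjoin_le ?_
  rintro _ ⟨j, i, i', h, rfl⟩
  exact div_mem_at h i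

theorem IsE.mono {J J' : Type} {T : J → Tup Y.F} {T' : J' → Tup Y.F} (h : IsE T) (g : J → J')
    (hg : ∀ k, T k = T' (g k)) : IsE T' := by
  have h1 : ∀ x, Algebra.adjoin ℂ (crdAt T x) ≤ Algebra.adjoin ℂ (crdAt T' x) := fun x => by
    refine Algebra.adjoin_mono ?_
    rintro _ ⟨j, hj⟩
    exact ⟨g j, hg j ▸ hj⟩
  intro x f hf
  obtain ⟨a, ha, c, hc, h2⟩ := h x f hf
  exact ⟨a, h1 x ha, c, h1 x hc, h2⟩

theorem map_adj {J J' : Type} {μ : Hom X Y} {T : J → Tup Y.F} {T' : J' → Tup X.F} {g : J → J'}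
    (h : ∀ k, Rs μ (T k) (T' (g k))) (h0 : ∀ k, ∃ i, (T' (g k)).y i ≠ 0) (x : X.Pt) {a : Y.F}
    (ha : a ∈ Algebra.adjoin ℂ (crdAt T (μ.map x))) :
    μ.p.π a ∈ Algebra.adjoin ℂ (crdAt T' x) := by
  induction ha using Algebra.adjoin_induction with
  | mem f hf =>
    obtain ⟨j, i, i', h1, rfl⟩ := hf
    obtain ⟨e, u, c, -, -, -, h3⟩ := rs_key (h j) (h0 j)
    exact Algebra.subset_adjoin ⟨g j, e i, e i', (h3 x i' h1).2.1, ((h3 x i' h1).2.2 i).symm⟩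
  | algebraMap c => rw [μ.p.π_alg]; exact algebraMap_mem _ c
  | add a b ha hb iha ihb =>
    rw [μ.p.π_add (μ.mem_O (adj_le T _ ha)) (μ.mem_O (adj_le T _ hb))]
    exact add_mem iha ihb
  | mul a b ha hb iha ihb =>
    rw [μ.p.π_mul (μ.mem_O (adj_le T _ ha)) (μ.mem_O (adj_le T _ hb))]
    exact mul_mem iha ihb

theorem IsE.res {J J' : Type} {μ : Hom X Y} (hμ : IsEmb μ) {T : J → Tup Y.F} {T' : J' → Tup X.F}
    (hT : IsE T) {g : J → J'} (h : ∀ k, Rs μ (T k) (T' (g k)))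
    (h0 : ∀ k, ∃ i, (T' (g k)).y i ≠ 0) : IsE T' := by
  intro x f hf
  obtain ⟨f, hf', rfl⟩ := hμ.2 x f hf
  obtain ⟨a, ha, c, hc, h1, h2⟩ := hT _ f hf'
  refine ⟨_, map_adj h h0 x ha, _, map_adj h h0 x hc, ?_, ?_⟩
  · rwa [← μ.ev_map (adj_le T _ hc)]
  · rw [← μ.p.π_mul (μ.mem_O hf') (μ.mem_O (adj_le T _ hc)), h2]

theorem IsE.prod {J₁ J₂ J : Type} {T₁ : J₁ → Tup X.F} {T₂ : J₂ → Tup Y.F}
    {T : J → Tup (X.prod Y).F} (h₁ : IsE T₁) (h₂ : IsE T₂) {g₁ : J₁ → J} {g₂ : J₂ → J}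
    (r₁ : ∀ k, Rs (fst X Y) (T₁ k) (T (g₁ k))) (r₂ : ∀ k, Rs (snd X Y) (T₂ k) (T (g₂ k)))
    (h0 : ∀ k, ∃ i, (T k).y i ≠ 0) : IsE T := by
  intro w f hf
  have h1 := Cns.lpP_of' (isPF ℂ X.F Y.F) ⟨adj_le T₁ _, h₁ ((fst X Y).map w)⟩
    ⟨adj_le T₂ _, h₂ ((snd X Y).map w)⟩
  rw [← Cns.lp_prod, Cns.pr_eq_adjoin'] at h1
  have h2 : Algebra.adjoin ℂ (pα ℂ X.F Y.F '' (Algebra.adjoin ℂ (crdAt T₁ ((fst X Y).map w))) ∪
      pβ ℂ X.F Y.F '' (Algebra.adjoin ℂ (crdAt T₂ ((snd X Y).map w)))) ≤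
      Algebra.adjoin ℂ (crdAt T w) := by
    refine Algebra.adjoin_le ?_
    rintro _ (⟨a, ha, rfl⟩ | ⟨a, ha, rfl⟩)
    · exact map_adj r₁ (fun k => h0 _) w ha
    · exact map_adj r₂ (fun k => h0 _) w ha
  obtain ⟨a, ha, c, hc, h3⟩ := h1.loc f hf
  exact ⟨a, h2 ha, c, h2 hc, h3⟩

theorem reg_own (Y : SV) : (ownT Y).Reg Y := ⟨⟨(0 : Fin (Y.P.N + 1)), Y.P.y_ne 0⟩, oP_mem⟩

theorem isE_own {J : Type} {T : J → Tup Y.F} (j : J) (g : Fin (Y.P.N + 1) → (T j).io)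
    (hg : ∀ i, (T j).y (g i) = Y.P.y i) (hb : (T j).bd = Y.h) : IsE T := by
  intro x f hf
  obtain ⟨i, hi⟩ := exists_pat x
  obtain ⟨a, ha, c, hc, h⟩ := (mem_lp_iff hi).1 hf
  have h1 : Y.P.A i ≤ Algebra.adjoin ℂ (crdAt T x) := by
    refine Algebra.adjoin_mono ?_
    rintro _ ⟨l, rfl⟩
    exact ⟨j, g l, g i, by rw [hb, hg]; exact at_y hi, by rw [hg, hg]⟩
  exact ⟨a, h1 ha, c, h1 hc, h⟩

/-! ### embeddings -/

/-- the embedding of the model -/
def ownP (Y : SV) : Pre Y where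
  J := Unit
  T _ := ownT Y
  reg _ := reg_own Y
  emb := isE_own () id (fun _ => rfl) rfl

/-- the coordinates of the model and a coordinate `0` -/
def ownZ (Y : SV) : Tup Y.F := ⟨Option (Fin (Y.P.N + 1)), fun o => o.elim 0 Y.P.y⟩

theorem bd_ownZ (Y : SV) : (ownZ Y).bd = Y.h := by
  refine (eq_mxf (fun i => ?_) fun V => ?_).symm
  · rcases i with _ | i
    · exact zero_mem _
    · exact y_mem_Sec i
  · obtain ⟨i, hi⟩ := exists_val_mxf (k := ℂ) ⟨0, Y.P.y_ne 0⟩ V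
    exact ⟨some i, hi⟩

/-- every variety has an embedding -/
def own (Y : SV) : Emb Y where
  J := Unit
  T _ := ownZ Y
  reg _ := ⟨⟨some 0, Y.P.y_ne 0⟩, by rw [bd_ownZ]; exact oP_mem⟩
  emb := isE_own () some (fun _ => rfl) (bd_ownZ Y)
  nt _ := ⟨⟨none, some 0, (Option.some_ne_none _).symm⟩⟩
  cod := ⟨MvPolynomial.X ⟨(), none⟩, Pi.single () 1, MvPolynomial.X_ne_zero _,
    MvPolynomial.isWeightedHomogeneous_X _ _ _, MvPolynomial.aeval_X _ _⟩

theorem own_h (C : Th) (Y : SV) (j : (own Y).J) : (own Y).h C j = C.hc Y :=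
  congrArg (C.c1 Y) (bd_ownZ Y)

theorem rs_id (t : Tup Y.F) : Rs (idH Y) t t :=
  ⟨Equiv.refl _, 1, 1, fun _ => Algebra.mem_top, fun i => by simp [Cns.idM_p]⟩

/-- more factors -/
def add (m : Emb Y) {J : Type} [Fintype J] [DecidableEq J] (T : J → Tup Y.F)
    (hT : ∀ j, (T j).Reg Y) (hn : ∀ j, Nontrivial (T j).io) : Emb Y where
  J := m.J ⊕ J
  T := Sum.elim m.T T
  reg j := by rcases j with j | j; exacts [m.reg j, hT j]
  emb := IsE.mono m.emb Sum.inl fun _ => rfl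
  nt j := by rcases j with j | j; exacts [m.nt j, hn j]
  cod := rs_cod (μ := idH Y) (T' := Sum.elim m.T T) Sum.inl_injective (fun _ => rs_id _) m.cod

/-- the union of two embeddings -/
abbrev sum (m n : Emb Y) : Emb Y := add m n.T n.reg n.nt

/-- restriction to a smooth subvariety -/
def res (μ : Hom X Y) (hμ : IsEmb μ) (m : Emb Y) : Emb X where
  J := m.J
  T j := pull μ (m.T j) (m.reg j)
  reg _ := reg_pull μ _ _
  emb := IsE.res hμ m.emb (g := id) (fun _ => rs_pull μ _ _) fun _ => pull_ne μ _ _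
  nt := m.nt
  cod := rs_cod (μ := μ) (g := id) Function.injective_id (fun _ => rs_pull μ _ _) m.cod

theorem rs_res (μ : Hom X Y) (hμ : IsEmb μ) (m : Emb Y) (j : m.J) :
    Rs μ (m.T j) ((res μ hμ m).T j) := rs_pull μ _ (m.reg j)

/-- the tuples of a product -/
def prodT (m : Pre X) (n : Pre Y) : m.J ⊕ n.J → Tup (X.prod Y).F :=
  Sum.elim (fun j => pull (fst X Y) (m.T j) (m.reg j)) fun j => pull (snd X Y) (n.T j) (n.reg j)

theorem reg_prodT (m : Pre X) (n : Pre Y) (j : m.J ⊕ n.J) : (prodT m n j).Reg (X.prod Y) := by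
  rcases j with j | j
  exacts [reg_pull _ _ (m.reg j), reg_pull _ _ (n.reg j)]

/-- the product embedding -/
def prod (m : Emb X) (n : Pre Y) (hn : ∀ j, Nontrivial (n.T j).io) : Emb (X.prod Y) where
  J := m.J ⊕ n.J
  T := prodT m.toPre n
  reg := reg_prodT _ _
  emb := IsE.prod m.emb n.emb (g₁ := Sum.inl) (g₂ := Sum.inr) (fun k => rs_pull _ _ (m.reg k))
    (fun k => rs_pull _ _ (n.reg k)) fun k => (reg_prodT _ _ k).1
  nt j := by rcases j with j | j; exacts [m.nt j, hn j]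
  cod := rs_cod (μ := fst X Y) (T' := prodT m.toPre n) Sum.inl_injective
    (fun k => rs_pull _ _ (m.reg k)) m.cod

theorem rs_prod_inl (m : Emb X) (n : Pre Y) (hn : ∀ j, Nontrivial (n.T j).io) (j : m.J) :
    Rs (fst X Y) (m.T j) ((prod m n hn).T (Sum.inl j)) := rs_pull _ _ (m.reg j)

theorem rs_prod_inr (m : Emb X) (n : Pre Y) (hn : ∀ j, Nontrivial (n.T j).io) (j : n.J) :
    Rs (snd X Y) (n.T j) ((prod m n hn).T (Sum.inr j)) := rs_pull _ _ (n.reg j)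

end Crest.Agent.X262.End36
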