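import Crest.Agent.X262.End36.Itp
import Crest.Agent.X262.End36.Emb
import Crest.Agent.X262.Kill52.Kun

/-!
# Row 262, END (helper36), part 3: change of the embedding, products, the trivial end

* `keeps_refine`, `transfer`, `transfer0`, `eig_of_one` : subspace conditions do not depend on the
  embedding;  `op_of_rel` : the operations of one embedding as sums;
* `prod_op`, `prod_mem` : products with a projective space;
* `end_mem` : a hyperplane section `Y × P ^ n` on which the hyperplane class restricts to the class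
  of `P ^ n`.
-/

set_option autoImplicit false

noncomputable section

namespace Crest.Agent.X262.End36

open Crest.Agent.X277 Crest.Agent.X277.Lef Crest.Agent.X277.AN.G1 Crest.Agent.X277.BD
  Crest.Agent.X277.BD.Br
open Crest.Agent.X262.Coh Crest.Agent.X262.Ult Crest.Agent.X262.Gwb

variable {C : Th} {G : Gw C} {Y : SV}

theorem h_AA (hT : C.TYP) (m : Pre Y) (j : m.J) : m.h C j ∈ AA C Y :=
  Kill52.mem_AA (hT.c1 Y _ (m.reg j).2)

/-- the restriction of a multidegree -/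
def rsd {J J' : Type} [Fintype J] (g : J → J') (d : J' →₀ ℕ) : J →₀ ℕ :=
  Finsupp.equivFunOnFinite.symm fun k => d (g k)

@[simp] theorem rsd_apply {J J' : Type} [Fintype J] (g : J → J') (d : J' →₀ ℕ) (k : J) :
    rsd g d k = d (g k) := rfl

section Transfer

variable (hT : C.TYP) (hG : G.Ax) (W : Submodule ℂ (C.H Y)) (l₀ : Multiset (C.H Y))
include hT hG

theorem keeps_refine (m₀ m : Emb Y) (g : m₀.J → m.J) (hg : Function.Injective g)
    (hm : ∀ k, m₀.T k = m.T (g k)) (d : m.J →₀ ℕ)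
    (h : ∀ l, (∀ a ∈ l, a ∈ AA C Y) → G.op m₀ (rsd g d) (l₀ + l) ∈ W) (l : Multiset (C.H Y))
    (hl : ∀ a ∈ l, a ∈ AA C Y) : G.op m d (l₀ + l) ∈ W := by
  refine refine m₀ m g hg hm W hG.emb hG.dvz hG.low (rsd g d) _ (fun k => ?_) d fun _ => rfl
  rw [add_left_comm]
  refine h _ fun a ha => ?_
  rcases Multiset.mem_add.1 ha with ha | ha
  · obtain ⟨j, -, rfl⟩ := Multiset.mem_map.1 ha
    exact h_AA hT m.toPre j
  · exact hl a ha

/-- **change of the embedding** -/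
theorem transfer (m₀ m : Emb Y) (d : m.J →₀ ℕ) (R : (m₀.J →₀ ℕ) → Prop)
    (hR : ∀ d' : (sum m m₀).J →₀ ℕ, (∀ k, d' (Sum.inl k) = d k) → ¬ R (rsd Sum.inr d') →
      ∀ l, G.op (sum m m₀) d' l = 0)
    (h : ∀ d₀, R d₀ → ∀ l, (∀ a ∈ l, a ∈ AA C Y) → G.op m₀ d₀ (l₀ + l) ∈ W)
    (l : Multiset (C.H Y)) (hl : ∀ a ∈ l, a ∈ AA C Y) : G.op m d (l₀ + l) ∈ W := by
  refine unrefine m (sum m m₀) Sum.inl Sum.inl_injective (fun _ => rfl) W hG.emb d _ fun d' hd' => ?_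
  by_cases h1 : R (rsd Sum.inr d')
  · exact keeps_refine hT hG W l₀ m₀ (sum m m₀) Sum.inr Sum.inr_injective (fun _ => rfl) d'
      (h _ h1) l hl
  · rw [hR d' hd' h1]
    exact W.zero_mem

theorem transfer1 (m₀ m : Emb Y) (h : ∀ d₀ l, (∀ a ∈ l, a ∈ AA C Y) → G.op m₀ d₀ (l₀ + l) ∈ W)
    (d : m.J →₀ ℕ) (l : Multiset (C.H Y)) (hl : ∀ a ∈ l, a ∈ AA C Y) : G.op m d (l₀ + l) ∈ W :=
  transfer hT hG W l₀ m₀ m d (fun _ => True) (fun _ _ h => (h trivial).elim) (fun d₀ _ => h d₀) l hl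

/-- the same for the degrees which vanish on given classes -/
theorem transfer0 (m₀ m : Emb Y) {ι : Type*} (k₀ : ι → m₀.J) (k : ι → m.J)
    (hk : ∀ i, m.h C (k i) = m₀.h C (k₀ i))
    (h : ∀ d₀ : m₀.J →₀ ℕ, (∀ i, d₀ (k₀ i) = 0) → ∀ l, (∀ a ∈ l, a ∈ AA C Y) →
      G.op m₀ d₀ (l₀ + l) ∈ W)
    (d : m.J →₀ ℕ) (hd : ∀ i, d (k i) = 0) (l : Multiset (C.H Y)) (hl : ∀ a ∈ l, a ∈ AA C Y) :
    G.op m d (l₀ + l) ∈ W := by
  refine transfer hT hG W l₀ m₀ m d (fun d₀ => ∀ i, d₀ (k₀ i) = 0) (fun d' h1 h2 => ?_) h l hl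
  obtain ⟨i, hi⟩ := not_forall.1 h2
  exact rel2 hG.dvz hG.low (sum m m₀) (j := Sum.inl (k i)) (j' := Sum.inr (k₀ i)) (hk i)
    (by rw [h1, hd]; exact fun h => hi h.symm)

end Transfer

/-- one embedding is enough -/
theorem eig_of_one (hT : C.TYP) (hG : G.Ax) (m₀ : Emb Y) {x : C.H Y}
    (h : ∀ d l, (∀ a ∈ l, a ∈ AA C Y) → ∃ c : ℂ, G.op m₀ d (x ::ₘ l) = c • x) : G.Eig Y x := by
  intro m d l hl
  obtain ⟨c, hc⟩ := Submodule.mem_span_singleton.1 (transfer1 hT hG (ℂ ∙ x) {x} m₀ m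
    (fun d l hl => Submodule.mem_span_singleton.2 ((h d l hl).imp fun _ h => h.symm)) d l hl)
  exact ⟨c, hc.symm⟩

theorem keeps_of_one (hT : C.TYP) (hG : G.Ax) (m₀ m : Emb Y) {W : Submodule ℂ (C.H Y)}
    (h : G.Keeps m₀ (fun _ => True) W) : G.Keeps m (fun _ => True) W := fun d _ l hl x hx =>
  transfer1 hT hG W {x} m₀ m (fun d l hl => h d trivial l hl x hx) d l hl

/-- if the classes of `m₀` determine the degrees for `m`, the operations of `m` are sums of the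
operations of `m₀` -/
theorem op_of_rel (hG : G.Ax) (m₀ m : Emb Y) (φ : (m₀.J →₀ ℕ) → m.J → ℂ)
    (hφ : ∀ d' : (sum m m₀).J →₀ ℕ, (∃ k, (d' (Sum.inl k) : ℂ) ≠ φ (rsd Sum.inr d') k) →
      ∀ l, G.op (sum m m₀) d' l = 0) (d : m.J →₀ ℕ) (l : Multiset (C.H Y)) :
    ∃ s : Finset (m₀.J →₀ ℕ), (∀ d₀ ∈ s, ∀ k, (d k : ℂ) = φ d₀ k) ∧
      (∀ d₀, (∀ k, (d k : ℂ) = φ d₀ k) → d₀ ∉ s → G.op m₀ d₀ l = 0) ∧
      G.op m d l = ∑ d₀ ∈ s, G.op m₀ d₀ l := by
  classical
  have ext : ∀ d₁ d₂ : (sum m m₀).J →₀ ℕ, (∀ k, d₁ (Sum.inl k) = d₂ (Sum.inl k)) →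
      rsd Sum.inr d₁ = rsd Sum.inr d₂ → d₁ = d₂ := fun d₁ d₂ h1 h2 => by
    ext k
    rcases k with k | k
    exacts [h1 k, DFunLike.congr_fun h2 k]
  -- the operation of `m₀` is one operation of the union
  have one : ∀ d' : (sum m m₀).J →₀ ℕ, (∀ k, (d' (Sum.inl k) : ℂ) = φ (rsd Sum.inr d') k) →
      G.op m₀ (rsd Sum.inr d') l = G.op (sum m m₀) d' l := fun d' h => by
    obtain ⟨s, h1, h2, h3⟩ := hG.emb m₀ (sum m m₀) Sum.inr Sum.inr_injective (fun _ => rfl)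
      (rsd Sum.inr d') l
    rw [h3]
    refine Finset.sum_eq_single d' (fun d₁ hd₁ hne => hφ d₁ ?_ l) (h2 d' fun _ => rfl)
    have h4 : rsd Sum.inr d₁ = rsd Sum.inr d' := Finsupp.ext (h1 d₁ hd₁)
    by_contra h5
    push Not at h5
    exact hne (ext _ _ (fun k => by exact_mod_cast (h5 k).trans (h4 ▸ (h k).symm)) h4)
  obtain ⟨s, h1, h2, h3⟩ := hG.emb m (sum m m₀) Sum.inl Sum.inl_injective (fun _ => rfl) d l
  let s' := s.filter fun d' => ∀ k, (d' (Sum.inl k) : ℂ) = φ (rsd Sum.inr d') k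
  refine ⟨s'.image (rsd Sum.inr), fun d₀ hd₀ k => ?_, fun d₀ hd₀ hn => ?_, ?_⟩
  · obtain ⟨d', hd', rfl⟩ := Finset.mem_image.1 hd₀
    rw [← h1 d' (Finset.mem_filter.1 hd').1 k]
    exact (Finset.mem_filter.1 hd').2 k
  · let d' : (sum m m₀).J →₀ ℕ := Finsupp.equivFunOnFinite.symm (Sum.elim d d₀)
    have h4 : rsd Sum.inr d' = d₀ := Finsupp.ext fun _ => rfl
    have h5 : ∀ k, (d' (Sum.inl k) : ℂ) = φ (rsd Sum.inr d') k := fun k => h4 ▸ hd₀ k
    rw [← h4, one d' h5]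
    exact h2 d' (fun _ => rfl) fun h => hn (Finset.mem_image.2 ⟨d', Finset.mem_filter.2 ⟨h, h5⟩, h4⟩)
  · have h4 : Set.InjOn (rsd (J := m₀.J) Sum.inr) (s' : Set (m.J ⊕ m₀.J →₀ ℕ)) :=
      fun d₁ hd₁ d₂ hd₂ h => ext _ _ (fun k => by
        rw [h1 d₁ (Finset.mem_filter.1 hd₁).1, h1 d₂ (Finset.mem_filter.1 hd₂).1]) h
    refine h3.trans (Eq.trans ?_ (Finset.sum_image h4).symm)
    refine Eq.trans ?_ (Finset.sum_congr rfl fun d' hd' => one d' (Finset.mem_filter.1 hd').2).symm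
    refine (Finset.sum_subset (Finset.filter_subset _ _) fun d' hd' hn => hφ d' ?_ l).symm
    by_contra h5
    push Not at h5
    exact hn (Finset.mem_filter.2 ⟨hd', h5⟩)

/-! ### products -/

section Prod

variable {S : SV}

/-- the product with the coordinates of `S` -/
abbrev prS (m : Emb Y) (S : SV) : Emb (Y.prod S) := prod m (own S).toPre (own S).nt

theorem prS_h (hM : C.MAN) (m : Emb Y) (k : (own S).J) :
    (prS m S).h C (Sum.inr k) = C.pb (snd Y S) (C.hc S) := by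
  rw [← own_h C S k]
  exact (rs_pb_c1 hM (rs_prod_inr m _ _ k) ((prS m S).reg _).1 ((own S).reg k)).symm

theorem prod_op (hC : C.Ax) (hK : KUNP C) (hG : G.Ax) (hS : IsProj S) (m : Emb Y)
    (d : (prS m S).J →₀ ℕ) (hd : ∀ k, d (Sum.inr k) = 0) (l : Multiset (C.H Y)) :
    G.op (prS m S) d (l.map (C.pb (fst Y S))) = C.pb (fst Y S) (G.op m (rsd Sum.inl d) l) := by
  refine hC.pd.ext fun z => ?_
  induction hK S Y hS z using Submodule.span_induction with
  | mem z hz =>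
    obtain ⟨a, b, rfl⟩ := hz
    rw [mul_comm, hG.prod m (own S).toPre (prS m S) (Equiv.refl _) (rs_prod_inl m _ _)
      (rs_prod_inr m _ _) (rsd Sum.inl d) d (fun _ => rfl) hd, ← mul_assoc, ← map_mul, hC.fub,
      mul_comm a]
  | zero => simp
  | add a b _ _ ha hb => rw [mul_add, mul_add, map_add, map_add, ha, hb]
  | smul c a _ ha => rw [mul_smul_comm, mul_smul_comm, map_smul, map_smul, ha]

variable (C) in
/-- the span of the `λ ^ k * fst^* w`, `w ∈ W` -/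
def up (S : SV) (W : Submodule ℂ (C.H Y)) : Submodule ℂ (C.H (Y.prod S)) :=
  Submodule.span ℂ {z | ∃ w ∈ W, ∃ k : ℕ, z = C.pb (snd Y S) (C.hc S) ^ k * C.pb (fst Y S) w}

theorem mul_mem_up {W : Submodule ℂ (C.H Y)} (k : ℕ) {z : C.H (Y.prod S)} (hz : z ∈ up C S W) :
    C.pb (snd Y S) (C.hc S) ^ k * z ∈ up C S W := by
  induction hz using Submodule.span_induction with
  | mem z hz =>
    obtain ⟨w, hw, n, rfl⟩ := hz
    exact Submodule.subset_span ⟨w, hw, k + n, by rw [pow_add, mul_assoc]⟩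
  | zero => simp
  | add a b _ _ ha hb => rw [mul_add]; exact add_mem ha hb
  | smul c a _ ha => rw [mul_smul_comm]; exact Submodule.smul_mem _ c ha

theorem prod_mem (hC : C.Ax) (hK : KUNP C) (hG : G.Ax) (hS : IsProj S) (m : Emb Y)
    (W : Submodule ℂ (C.H Y)) (l₀ : Multiset (C.H Y)) (d : (prS m S).J →₀ ℕ)
    (hd : ∀ k, d (Sum.inr k) = 0)
    (h : ∀ l, (∀ a ∈ l, a ∈ AA C Y) → G.op m (rsd Sum.inl d) (l₀ + l) ∈ W)
    (l : Multiset (C.H (Y.prod S))) (hl : ∀ a ∈ l, a ∈ AA C (Y.prod S)) :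
    G.op (prS m S) d (l₀.map (C.pb (fst Y S)) + l) ∈ up C S W := by
  have key : ∀ l₁ : Multiset (C.H Y), (∀ a ∈ l₁, a ∈ AA C Y) →
      G.op (prS m S) d (l + (l₀ + l₁).map (C.pb (fst Y S))) ∈ up C S W := by
    induction l using Multiset.induction_on with
    | empty =>
      intro l₁ h₁
      rw [zero_add, prod_op hC hK hG hS m d hd]
      exact Submodule.subset_span ⟨_, h l₁ h₁, 0, by simp⟩
    | cons z l ih =>
      intro l₁ h₁
      have ih' := ih fun a ha => hl a (Multiset.mem_cons_of_mem ha)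
      rw [Multiset.cons_add]
      have hz := Kill52.kun_AA hC.man hC.pd hC.typ hC.pn hK hS (hl z (Multiset.mem_cons_self _ _))
      clear hl ih
      induction hz using Submodule.span_induction with
      | mem z hz =>
        obtain ⟨a, ha, k, rfl⟩ := hz
        rw [mul_comm]
        refine (congrArg (· ∈ up C S W) ((hG.mov (prS m S) (snd Y S) (own S).toPre Sum.inr
          (rs_prod_inr m _ _) (C.hc S)).pow k d hd _ _)).mpr (mul_mem_up k ?_)
        have h2 := ih' (a ::ₘ l₁) fun b hb => by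
          rcases Multiset.mem_cons.1 hb with rfl | hb
          exacts [ha, h₁ b hb]
        rwa [Multiset.add_cons, Multiset.map_cons, Multiset.add_cons] at h2
      | zero => rw [op_zero]; exact zero_mem _
      | add a b _ _ ha hb => rw [op_add]; exact add_mem ha hb
      | smul c a _ ha => rw [op_smul]; exact Submodule.smul_mem _ c ha
  have h1 := key 0 (by simp)
  rwa [add_zero, add_comm] at h1

/-- any embedding of the product, degree zero on the class of `S` -/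
theorem prod_mem' (hC : C.Ax) (hK : KUNP C) (hG : G.Ax) (hS : IsProj S) (m : Emb Y)
    (W : Submodule ℂ (C.H Y)) (l₀ : Multiset (C.H Y))
    (h : ∀ d l, (∀ a ∈ l, a ∈ AA C Y) → G.op m d (l₀ + l) ∈ W) (n : Emb (Y.prod S)) (k : n.J)
    (hk : n.h C k = C.pb (snd Y S) (C.hc S)) (d : n.J →₀ ℕ) (hd : d k = 0)
    (l : Multiset (C.H (Y.prod S))) (hl : ∀ a ∈ l, a ∈ AA C (Y.prod S)) :
    G.op n d (l₀.map (C.pb (fst Y S)) + l) ∈ up C S W :=
  transfer0 hC.typ hG _ _ (prS m S) n (ι := (own S).J) Sum.inr (fun _ => k)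
    (fun i => hk.trans (prS_h hC.man m i).symm)
    (fun d₀ h₀ => prod_mem hC hK hG hS m W l₀ d₀ h₀ (h _)) d (fun _ => hd) l hl

end Prod

/-! ### the trivial end -/

theorem push_one_hyp (hC : C.Ax) {D B : SV} {j : Hom D B} (m : Pre B) {k₀ : m.J}
    {i₀ : (m.T k₀).io} (hj : IsDv j ((m.T k₀).bd - pr ℂ ((m.T k₀).y i₀))) :
    C.push j 1 = m.h C k₀ := by
  rw [hC.pl0 j _ hj, hC.man.c1_sub (m.reg k₀).2 (pr_mem _), hC.man.c1_pr, sub_zero]

/-- **the trivial end** -/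
theorem end_mem (hC : C.Ax) (hK : KUNP C) (hG : G.Ax) {S B : SV} (hS : IsProj S)
    (j : Hom (Y.prod S) B) (m : Emb B) (k₀ : m.J) (i₀ : (m.T k₀).io)
    (h₀ : (m.T k₀).y i₀ ≠ 0) (hj : IsDv j ((m.T k₀).bd - pr ℂ ((m.T k₀).y i₀)))
    (hG0 : C.pb j (m.h C k₀) = C.pb (snd Y S) (C.hc S)) {lam : C.H B}
    (hlam : C.pb j lam = C.pb (snd Y S) (C.hc S)) {x : C.H Y} (hx : G.Eig Y x) {e : C.H B}
    (he : C.pb j e = C.pb (fst Y S) x) (d : m.J →₀ ℕ) (hd : d k₀ = 0) (l : Multiset (C.H B))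
    (hl : ∀ a ∈ l, a ∈ AA C B) :
    G.op m d ((m.h C k₀ * e) ::ₘ l) ∈
      Submodule.span ℂ {z | ∃ i : ℕ, z = lam ^ i * (m.h C k₀ * e)} := by
  rw [hG.hyp j m (res j hj.emb m) (Equiv.refl _) (rs_res j hj.emb m) k₀ i₀ h₀ hj d d
    (fun _ => rfl) hd]
  have h1 := prod_mem' hC hK hG hS (own Y) (ℂ ∙ x) {x}
    (fun d l hl => Submodule.mem_span_singleton.2 ((hx _ d l hl).imp fun _ h => h.symm))
    (res j hj.emb m) k₀ (by
      rw [← hG0]
      exact (rs_pb_c1 hC.man (rs_res j hj.emb m k₀) ((res j hj.emb m).reg k₀).1 (m.reg k₀)).symm)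
    d hd (l.map (C.pb j)) fun a ha => by
      obtain ⟨a, ha', rfl⟩ := Multiset.mem_map.1 ha
      exact Kill52.AA_pb hC.typ j (hl a ha')
  rw [Multiset.map_singleton, Multiset.singleton_add, ← he] at h1
  generalize G.op (res j hj.emb m) d _ = z at h1
  induction h1 using Submodule.span_induction with
  | mem z hz =>
    obtain ⟨w, hw, k, rfl⟩ := hz
    obtain ⟨c, rfl⟩ := Submodule.mem_span_singleton.1 hw
    rw [map_smul, mul_smul_comm, map_smul, ← he, ← hlam, ← map_pow, ← map_mul, hC.pd.push_pb,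
      push_one_hyp hC m.toPre hj]
    exact Submodule.smul_mem _ c (Submodule.subset_span ⟨k, by ring⟩)
  | zero => simp
  | add a b _ _ ha hb => rw [map_add]; exact add_mem ha hb
  | smul c a _ ha => rw [map_smul]; exact Submodule.smul_mem _ c ha

end Crest.Agent.X262.End36
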