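import Crest.Agent.X262.Gwb.Defs

/-!
# Row 262, END (helper36), part 1: interpolation

* `mem_of_chars` : independence of the characters `k ↦ ∏ d ^ k`;
* `op_hc`, `rel`, `rel2` : insertions of hyperplane classes, linear relations;
* `unrefine`, `refine` : a subspace condition passes to coarser and to finer gradings.
-/

set_option autoImplicit false

noncomputable section

namespace Crest.Agent.X262.End36

open Crest.Agent.X262.Coh Crest.Agent.X262.Ult Crest.Agent.X262.Gwb

/-- the character of a multidegree -/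
def chi {J : Type} (d : J →₀ ℕ) : Multiplicative (Multiset J) →* ℂ where
  toFun k := ((Multiplicative.toAdd k).map fun j => (d j : ℂ)).prod
  map_one' := by simp
  map_mul' a b := by simp

theorem chi_apply {J : Type} (d : J →₀ ℕ) (k : Multiplicative (Multiset J)) :
    chi d k = ((Multiplicative.toAdd k).map fun j => (d j : ℂ)).prod := rfl

theorem chi_inj {J : Type} : Function.Injective (chi (J := J)) := fun d d' h => by
  ext j
  have h1 := DFunLike.congr_fun h (Multiplicative.ofAdd ({j} : Multiset J))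
  simpa [chi_apply] using h1

theorem mem_of_chars {J V : Type} [AddCommGroup V] [Module ℂ V] (W : Submodule ℂ V)
    (s : Finset (J →₀ ℕ)) (v : (J →₀ ℕ) → V)
    (h : ∀ k : Multiset J, ∑ d ∈ s, (k.map fun j => (d j : ℂ)).prod • v d ∈ W) :
    ∀ d ∈ s, v d ∈ W := by
  intro d hd
  rw [← Submodule.Quotient.mk_eq_zero, ← Module.forall_dual_apply_eq_zero_iff ℂ]
  intro φ
  have hl := (linearIndependent_monoidHom (Multiplicative (Multiset J)) ℂ).comp _ chi_inj
  refine linearIndependent_iff'.1 hl s (fun d => φ (Submodule.Quotient.mk (v d))) ?_ d hd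
  funext k
  have h1 := congrArg φ ((Submodule.Quotient.mk_eq_zero W).2 (h (Multiplicative.toAdd k)))
  rw [← Submodule.mkQ_apply, map_sum, map_sum, map_zero] at h1
  rw [Finset.sum_apply, Pi.zero_apply, ← h1]
  refine Finset.sum_congr rfl fun d _ => ?_
  simp [chi_apply, mul_comm]

variable {C : Th} {G : Gw C} {Y : SV}

theorem op_zero (m : Emb Y) (d : m.J →₀ ℕ) (l : Multiset (C.H Y)) : G.op m d (0 ::ₘ l) = 0 :=
  (G.Q m).op_zero d l

theorem op_add (m : Emb Y) (d : m.J →₀ ℕ) (x y : C.H Y) (l : Multiset (C.H Y)) :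
    G.op m d ((x + y) ::ₘ l) = G.op m d (x ::ₘ l) + G.op m d (y ::ₘ l) := (G.Q m).add d x y l

theorem op_smul (m : Emb Y) (d : m.J →₀ ℕ) (c : ℂ) (x : C.H Y) (l : Multiset (C.H Y)) :
    G.op m d ((c • x) ::ₘ l) = c • G.op m d (x ::ₘ l) := (G.Q m).smul d c x l

theorem op_div (hd : G.DIV) (m : Emb Y) (j : m.J) (d : m.J →₀ ℕ) {l : Multiset (C.H Y)}
    (hl : 2 ≤ Multiset.card l) : G.op m d (m.h C j ::ₘ l) = (d j : ℂ) • G.op m d l := hd m j d l hl

theorem op_hc (hd : G.DIV) (m : Emb Y) (d : m.J →₀ ℕ) {l : Multiset (C.H Y)}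
    (hl : 2 ≤ Multiset.card l) (k : Multiset m.J) :
    G.op m d (k.map (m.h C) + l) = (k.map fun j => (d j : ℂ)).prod • G.op m d l := by
  induction k using Multiset.induction_on with
  | empty => simp
  | cons j k ih =>
    rw [Multiset.map_cons, Multiset.cons_add, Multiset.map_cons, Multiset.prod_cons, mul_smul, ← ih]
    exact hd m j d _ (by rw [Multiset.card_add]; omega)

theorem op_sum (m : Emb Y) (d : m.J →₀ ℕ) {ι : Type*} (s : Finset ι) (x : ι → C.H Y)
    (l : Multiset (C.H Y)) : G.op m d ((∑ i ∈ s, x i) ::ₘ l) = ∑ i ∈ s, G.op m d (x i ::ₘ l) :=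
  map_sum ((G.Q m).opl d l) x s

/-- a linear relation between the hyperplane classes is a relation between the degrees -/
theorem rel (hd : G.DIV) (hw : G.LOW) (m : Emb Y) (c : m.J → ℂ) (h : ∑ j, c j • m.h C j = 0)
    {d : m.J →₀ ℕ} (hc : ∑ j, c j * d j ≠ 0) (l : Multiset (C.H Y)) : G.op m d l = 0 := by
  rcases lt_or_ge (Multiset.card l) 2 with hl | hl
  · exact hw m d l hl
  have h1 : G.op m d ((∑ j, c j • m.h C j) ::ₘ l) = (∑ j, c j * d j) • G.op m d l := by
    rw [op_sum, Finset.sum_smul]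
    refine Finset.sum_congr rfl fun j _ => ?_
    rw [mul_smul, ← op_div hd m j d hl, op_smul]
  rw [h, op_zero] at h1
  exact (smul_eq_zero.1 h1.symm).resolve_left hc

/-- one class is a combination of other classes -/
theorem rel1 (hd : G.DIV) (hw : G.LOW) (m : Emb Y) {ι : Type*} (s : Finset ι) (g : ι → m.J)
    (c : ι → ℂ) (j : m.J) (h : m.h C j = ∑ i ∈ s, c i • m.h C (g i)) {d : m.J →₀ ℕ}
    (hc : (d j : ℂ) ≠ ∑ i ∈ s, c i * d (g i)) (l : Multiset (C.H Y)) : G.op m d l = 0 := by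
  rcases lt_or_ge (Multiset.card l) 2 with hl | hl
  · exact hw m d l hl
  have h1 : G.op m d ((∑ i ∈ s, c i • m.h C (g i)) ::ₘ l) =
      (∑ i ∈ s, c i * d (g i)) • G.op m d l := by
    rw [op_sum, Finset.sum_smul]
    refine Finset.sum_congr rfl fun i _ => ?_
    rw [mul_smul, ← op_div hd m (g i) d hl, op_smul]
  rw [← h, op_div hd m j d hl, ← sub_eq_zero, ← sub_smul] at h1
  exact (smul_eq_zero.1 h1).resolve_left (sub_ne_zero.2 hc)

/-- equal classes have equal degrees -/
theorem rel2 (hd : G.DIV) (hw : G.LOW) (m : Emb Y) {j j' : m.J} (h : m.h C j = m.h C j')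
    {d : m.J →₀ ℕ} (hc : d j ≠ d j') (l : Multiset (C.H Y)) : G.op m d l = 0 :=
  rel1 hd hw m {j'} id (fun _ => 1) j (by simpa using h) (by simpa using hc) l

section Refine

variable (m₀ m : Emb Y) (g : m₀.J → m.J) (hg : Function.Injective g)
  (hT : ∀ k, m₀.T k = m.T (g k)) (W : Submodule ℂ (C.H Y))
include hg hT

theorem unrefine (he : G.EMB) (d₀ : m₀.J →₀ ℕ) (l : Multiset (C.H Y))
    (h : ∀ d : m.J →₀ ℕ, (∀ k, d (g k) = d₀ k) → G.op m d l ∈ W) : G.op m₀ d₀ l ∈ W := by
  obtain ⟨s, h1, -, h3⟩ := he m₀ m g hg hT d₀ l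
  rw [h3]
  exact W.sum_mem fun d hd => h d (h1 d hd)

/-- **interpolation** -/
theorem refine (he : G.EMB) (hd : G.DIV) (hw : G.LOW) (d₀ : m₀.J →₀ ℕ) (l : Multiset (C.H Y))
    (h : ∀ k : Multiset m.J, G.op m₀ d₀ (k.map (m.h C) + l) ∈ W) (d : m.J →₀ ℕ)
    (hdd : ∀ k, d (g k) = d₀ k) : G.op m d l ∈ W := by
  classical
  rcases lt_or_ge (Multiset.card l) 2 with hl | hl
  · rw [hw m d l hl]; exact W.zero_mem
  obtain ⟨s, h1, h2, -⟩ := he m₀ m g hg hT d₀ l
  by_cases hs : d ∈ s
  swap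
  · rw [h2 d hdd hs]; exact W.zero_mem
  refine mem_of_chars W s (fun d => G.op m d l) (fun k => ?_) d hs
  obtain ⟨s', h1', h2', h3'⟩ := he m₀ m g hg hT d₀ (k.map (m.h C) + l)
  have e1 : ∑ d ∈ s', G.op m d (k.map (m.h C) + l) =
      ∑ d ∈ s ∪ s', G.op m d (k.map (m.h C) + l) :=
    Finset.sum_subset Finset.subset_union_right fun d hd hn =>
      h2' d (h1 d ((Finset.mem_union.1 hd).resolve_right hn)) hn
  have e2 : ∑ d ∈ s, G.op m d (k.map (m.h C) + l) =
      ∑ d ∈ s ∪ s', G.op m d (k.map (m.h C) + l) :=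
    Finset.sum_subset Finset.subset_union_left fun d hd' hn => by
      rw [op_hc hd m d hl, h2 d (h1' d ((Finset.mem_union.1 hd').resolve_left hn)) hn, smul_zero]
  have h4 := h k
  rw [h3', e1, ← e2] at h4
  simpa only [op_hc hd m _ hl] using h4

end Refine

end Crest.Agent.X262.End36
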