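import Crest.Agent.X262.End36.Main
import Crest.Agent.X262.Gwb.Mst

/-!
# Row 262, END (helper36), part 4: `EndStmt`, `OneStmt`, `OwnStmt`
-/

set_option autoImplicit false

noncomputable section

namespace Crest.Agent.X262.End36

open Crest.Agent.X277 Crest.Agent.X277.Lef Crest.Agent.X277.AN.G1 Crest.Agent.X277.BD
  Crest.Agent.X277.BD.Br
open Crest.Agent.X262.Coh Crest.Agent.X262.Ult Crest.Agent.X262.Gwb

variable {C : Th} {G : Gw C} {Y : SV}

theorem ownStmt : OwnStmt := fun Y => ⟨ownP Y, fun _ => rfl⟩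

theorem oneStmt (hC : C.Ax) (hG : G.Ax) : OneStmt G := by
  intro Y m hd h42 x hx h
  refine eig_of_one hC.typ hG m fun d l hl => ?_
  induction l using Multiset.induction_on with
  | empty => exact ⟨0, by rw [hG.low m d _ (by simp), zero_smul]⟩
  | cons a l _ =>
    by_cases h0 : d = 0
    swap
    · exact h d _ h0 hl Multiset.cons_ne_zero
    subst h0
    by_cases h1 : l = 0
    · subst h1
      obtain ⟨c, hc⟩ := Kill52.scal hC.man hC.typ (hl a (Multiset.mem_cons_self _ _))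
      exact ⟨c, ((G.Q m).cl x a).trans (hc x (Kill52.kl31 hC.typ hd h42 hx))⟩
    · refine ⟨0, ((G.Q m).zero3 _ ?_).trans (zero_smul _ _).symm⟩
      have := Multiset.card_pos.2 h1
      simp only [Multiset.card_cons]
      omega

theorem rs_pb_own (hM : C.MAN) {X : SV} {μ : Hom X Y} {t : Tup X.F} (h : Rs μ (ownT Y) t)
    (ht : t.Reg X) : C.c1 X t.bd = C.pb μ (C.hc Y) := (rs_pb_c1 hM h ht.1 (reg_own Y)).symm

theorem endStmt (hC : C.Ax) (hK : KUNP C) (hG : G.Ax) : EndStmt G := by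
  intro K _ _ s _ m₁ r M x _ hx d l _ hd hl _
  obtain ⟨a, h1, h2⟩ := M.gp
  refine Submodule.span_mono ?_ (end_mem hC hK hG M.projS M.ip M.m M.jG M.t M.t_ne M.dvp
    (lam := M.lam C) ?_ ?_ hx (hC.man.pb_sq M.ip_ζ x) d hd l hl)
  · rintro _ ⟨i, rfl⟩
    exact ⟨i, Or.inr rfl⟩
  · exact (hC.man.c1_pb _ _ (M.m.reg M.jG).2 a h1).trans (hC.man.c1_pb _ _ oP_mem a h2).symm
  · rw [show M.lam C = _ from rs_pb_own hC.man M.rsS (M.m.reg _)]
    exact hC.man.pb_tri M.ip_σ _

end Crest.Agent.X262.End36
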